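import Vale.Agent.P275OI.Defs
import Vale.Agent.P275MM.Cmp

/-! # P275: the product of the roots vanishes where the residue does not -/

set_option linter.all false
set_option backward.isDefEq.respectTransparency false

open CategoryTheory Topology Set Function Matrix
open Vale.Agent.P275GC (At)
open Vale.Agent.P275NA (Cy)
open Vale.Agent.P275MO Vale.Agent.P275Z Vale.Agent.P275MM Vale.Agent.P275OI
open P275S (H Hd KG pb)
open P275CC (Th LB Nc exists_pou ctOn_pou pou_eq pou_map ctOn_ent)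

noncomputable section

namespace Vale.Agent.P275DW

section gen

variable {X : Type} [TopologicalSpace X] [Nc X] {τ : Th}

/-- local functions give a section which agrees with them where they are compatible -/
theorem exists_sec (L : LB X) (r : L.ι → X → ℂ) (ct : ∀ i, ContinuousOn (r i) (L.U i)) :
    ∃ s, L.Sec univ s ∧ ∀ i, ∀ x ∈ L.U i, (∀ j, x ∈ L.U j → L.g i j x * r j x = r i x) →
      s i x = r i x := by
  obtain ⟨ρ, hρ⟩ := exists_pou L.U L.op L.cov
  refine ⟨fun i x => ∑ᶠ c, ρ c x • (L.g i c x * r c x), ⟨fun i => (ctOn_pou ρ L.op hρ (L.op i)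
    fun c => (L.ct i c).mul ((ct c).mono inter_subset_right)).mono inter_subset_left,
    fun i j x a b _ => pou_map ρ hρ LinearMap.id (LinearMap.mulLeft ℝ (L.g i j x)) fun c m => ?_⟩,
    fun i x _ h => pou_eq ρ hρ LinearMap.id h⟩
  rw [LinearMap.id_apply, LinearMap.mulLeft_apply, ← mul_assoc, L.cc i j c x a b m]

theorem vn_prod {k : Type} (s : Finset k) (a : k → τ.E X) (W : k → Set X) (op : ∀ i, IsOpen (W i))
    (h : ∀ i, τ.Vn (a i) (W i)) : τ.Vn (∏ i ∈ s, a i : τ.E X) (⋃ i ∈ s, W i) := by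
  classical
  induction s using Finset.induction_on with
  | empty =>
    have : IsEmpty (⋃ i ∈ (∅ : Finset k), W i) := ⟨fun x => by simpa using x.2⟩
    exact τ.empty _ _
  | insert i s hi ih =>
    rw [Finset.prod_insert hi, Finset.set_biUnion_insert]
    exact (h i).union (op i) (isOpen_biUnion fun j _ => op j) ih

theorem dg_prod {k : Type} (s : Finset k) (a : k → τ.E X) (h : ∀ i, τ.Dg 2 (a i : τ.H X)) :
    τ.Dg (2 * s.card : ℕ) ((∏ i ∈ s, a i : τ.E X) : τ.H X) := by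
  classical
  induction s using Finset.induction_on with
  | empty => exact Th.dg_one
  | insert i s hi ih =>
    rw [Finset.prod_insert hi, Finset.card_insert_of_notMem hi]
    exact (h i).mul ih (by push_cast; ring)

theorem dis_eq {R : Type} [CommRing R] {n : ℕ} (z : Fin n → R) :
    Th.dis z 0 = ∏ j : Fin (nr n), (z (ra j) - z (rb j)) := by
  rw [Th.dis, Finset.prod_sigma']
  refine (Finset.prod_bij (fun j _ => ⟨ra j, rb j⟩) (fun j _ => by simpa using ra_lt j)
    (fun i _ j _ e => ?_) (fun p hp => ?_) fun _ _ => rfl).symm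
  · exact root_inj (congrArg Sigma.fst e) (congrArg Sigma.snd e)
  · obtain ⟨j, a, b⟩ := exists_root (a := p.1) (b := p.2) (by simpa using hp)
    exact ⟨j, Finset.mem_univ _, Sigma.ext a (heq_of_eq b)⟩

end gen

variable {C : Type} [TopologicalSpace C] [Nc C] {n : ℕ} (A : At C) (l : Cy A ℂ) [Hy A l n]
  {τ τ' : Ty n}

theorem yE_ty (hH : τ.H ≤ τ'.H) (hq : τ.q ≤ τ'.q) (hH' : τ'.H ≤ bor n) (a : Fin n) :
    th.pe (tyC A l hH hq) (yE A l τ' hH' a) = yE A l τ (hH.trans hH') a :=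
  (Th.c_pb _ _).symm.trans (Th.c_iso (Sys.lb_iso (S := (univ A l τ').pb (tyC A l hH hq))
    (S' := (univ A l τ).ty hH hq) (funext fun t => (congrFun (univ_f A l τ') _).trans
      (congrArg (P275MB.ty hH hq) (congrFun (univ_f A l τ) t).symm))
    ((entB hH' a).pow n) (Chr.det _) (one_mul n)))

theorem Del_ty (hH : τ.H ≤ τ'.H) (hq : τ.q ≤ τ'.q) (hH' : τ'.H ≤ bor n) :
    pb (TopCat.ofHom (tyC A l hH hq)) (Del A l τ' hH') = Del A l τ (hH.trans hH') := by
  refine congrArg Subtype.val (show th.pe (tyC A l hH hq) (Th.dis _ 0) = Th.dis _ 0 from ?_)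
  simp only [dis_eq, map_prod, map_sub, yE_ty]

theorem y0_ty (hn : 2 ≤ n) (hH : τ.H ≤ τ'.H) (hq : τ.q ≤ τ'.q) (hH' : τ'.H ≤ bor n) :
    pb (TopCat.ofHom (tyC A l hH hq)) (y0 A l hn τ' hH') = y0 A l hn τ (hH.trans hH') :=
  congrArg Subtype.val (yE_ty A l hH hq hH' _)

theorem y0_mem (hn : 2 ≤ n) (hH : τ.H ≤ bor n) : y0 A l hn τ hH ∈ Hd ℂ (MT A l τ) 2 :=
  KG.mem_deg_iff_pr.2 (Th.dg_c1 (τ := th) _)

theorem Del_mem (hH : τ.H ≤ bor n) : Del A l τ hH ∈ Hd ℂ (MT A l τ) (2 * nr n : ℕ) := by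
  have := dg_prod Finset.univ (fun j : Fin (nr n) => yE A l τ hH (ra j) - yE A l τ hH (rb j))
    fun j => (Th.dg_c1 _).sub (Th.dg_c1 _)
  rw [Finset.card_univ, Fintype.card_fin, ← dis_eq] at this
  exact KG.mem_deg_iff_pr.2 this

/-- the line bundle of a root -/
def Rb (τ : Ty n) (hH : τ.H ≤ bor n) (a b : Fin n) : LB (Mod A l τ) :=
  (univ A l τ).lb (entB hH a) (entB hH b) rfl

theorem yE_sub (hH : τ.H ≤ bor n) (a b : Fin n) :
    yE A l τ hH a - yE A l τ hH b = n • th.c (Rb A l τ hH a b) := by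
  rw [sub_eq_iff_eq_add, ← Th.c_pow, yE, yE, ← Th.c_mul]
  refine Th.c_iso (LB.iso_ref _ _ (univ A l τ).U (fun i => i) (fun i => (i, i)) (univ A l τ).op
    (univ A l τ).cov (fun _ => subset_rfl) (fun _ _ h => ⟨h, h⟩) fun i j x u v => ?_)
  have := (univ A l τ).chr_ne (entB hH b) u v
  change _ ^ n / _ = ((entB hH a).χ _ / (entB hH b).χ _) ^ n * ((entB hH b).χ _ ^ n / _)
  rw [div_pow, div_mul_div_cancel₀ (pow_ne_zero _ this)]

variable (n)

/-- **DW** -/
theorem dw : DW n A l := by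
  let S := univ A l (tauZ n 0)
  choose s hs using fun j : Fin (nr n) => exists_sec (Rb A l (tauZ n 0) le_rfl (ra j) (rb j))
    (fun a t => (S.F a t).R (ra j) (rb j)) fun a => ctOn_ent (ct_R (S.fam a)) _ _
  have := vn_prod (τ := th) Finset.univ
    (fun j => yE A l (tauZ n 0) le_rfl (ra j) - yE A l (tauZ n 0) le_rfl (rb j))
    (fun j => LB.NZ _ (s j)) (fun j => (hs j).1.isOpen_NZ) fun j => by
      rw [yE_sub]
      exact (map_nsmul (th.pb _) n _).trans ((congrArg (n • ·) (Th.vn_sec (hs j).1)).trans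
        (smul_zero _))
  rw [← dis_eq] at this
  refine this.pb (P275CC.inc _) fun y => ?_
  obtain ⟨a, m⟩ := S.cov y.1
  have e : Ob.pt ⟨S.F a y.1, S.ob a _ m⟩ = y.1 :=
    (S.pt a _ m).trans (congrFun (univ_f A l (tauZ n 0)) _)
  have ne : ∃ j : Fin (nr n), (S.F a y.1).R (ra j) (rb j) ≠ 0 := by
    by_contra c
    push Not at c
    obtain ⟨x, hx⟩ := (mem_range_ty (τ := tauZ n (nr n)) (τ' := tauZ n 0) le_rfl
      (nk_anti (Nat.zero_le _)) le_rfl (S.ob a _ m)).2 ⟨(S.ob a _ m).2.1, fun j _ => c j⟩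
    exact y.2 ⟨x, hx.trans e⟩
  obtain ⟨j, hj, mn⟩ := (wellFounded_lt (α := Fin (nr n))).has_min _ ne
  have k : (S.F a y.1).R ∈ nk n j := ⟨(S.ob a _ m).2.1, fun i b => by_contra fun c => mn i c b⟩
  refine mem_iUnion₂.2 ⟨j, Finset.mem_univ _, a, m, ((hs j).2 a _ m fun b m' => ?_).trans_ne hj⟩
  · have u := S.mem m m'
    have d := S.det_h m m'
    have k' : (S.F b y.1).R ∈ nk n j := by
      rw [(S.ib m' m).R (S.gd m) (S.gd m')]
      exact mul_mem_nk (S.mem m' m) (inv_mem_bor (S.mem m' m) (S.det_h m' m)) k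
    have e := diag_mul u (inv_mem_bor u d) (rb j)
    rw [mul_nonsing_inv _ d.isUnit, one_apply_eq] at e
    change S.h a b y.1 _ _ / S.h a b y.1 _ _ * (S.F b y.1).R _ _ = (S.F a y.1).R _ _
    rw [(S.ib m m').R (S.gd m') (S.gd m), root_mul u (inv_mem_bor u d) j k',
      eq_inv_of_mul_eq_one_right e.symm]
    ring

end Vale.Agent.P275DW
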